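import Crest.Agent.X262.Ord20.Num
import Crest.Agent.X262.Wd54.Defs
import Crest.Agent.X262.Node22.Red
import Crest.Agent.X262.Vb.Bas0

/-!
# Row 262, road B (helper20): the excess number of a point of the ambient space is one

* `up_sz`   : the ideal of a rational point in affine coordinates;
* `num_dh`  : `D · (-D)^r = 1` on the generic fibre;
* `itg_om`  : the contribution of one component;
* `ordStmt` : `Wd54.OrdStmt`.
-/

set_option autoImplicit false
set_option linter.unusedSectionVars false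

noncomputable section

namespace Crest.Agent.X262.Ord20

open Crest.Agent.X277 Crest.Agent.X277.BD Crest.Agent.X277.Pst Crest.Agent.X277.BD.Cyc
open Crest.Agent.X262.Geo Crest.Agent.X262.Tr89 Crest.Agent.X262.Hb Crest.Agent.X262.Vb
open Crest.Agent.X262.Node22 Crest.Agent.X262.Wd54
open Crest.Agent.X262.Loc (dim_tower)
open List (replicate)
open IntermediateField (adjoin)
open Set (range)

variable {J : Type} [Fintype J] [DecidableEq J] {io : J → Type} [∀ j, Fintype (io j)]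
  [∀ j, DecidableEq (io j)] {k K : Type} [Field k] [Algebra ℂ k] [Field K] [Algebra ℂ K]
  [Algebra k K] [IsScalarTower ℂ k K] {y : Pnt io k} {y' : Pnt io K}

variable (K) in
/-- the image of a rational point -/
def im (y : Pnt io k) : Pnt io K := fun j i => algebraMap k K (y j i)

theorem nz_im (h : NZ y) : NZ (im K y) := fun j =>
  (h j).imp fun _ hi => (map_ne_zero (algebraMap k K)).2 hi

theorem prim_im (h : NZ y) (W : RZ k K) : Prim (W.dn ℂ) (im K y) := fun j =>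
  ⟨fun _ => W.2 _, (h j).imp fun _ hi => W.v_alg hi⟩

theorem card_piv (i₀ : (j : J) → io j) : Fintype.card (Σ j, {i // i ≠ i₀ j}) = dimP io := by
  simp [dimP, Fintype.card_sigma]

theorem eq_top (hg : adjoin ℂ (range (algebraMap k K) ∪ rat y') = ⊤) {i₀ : (j : J) → io j}
    (h0 : ∀ j, y' j (i₀ j) ≠ 0) {F : IntermediateField k K}
    (h : ∀ j i, i ≠ i₀ j → y' j i / y' j (i₀ j) ∈ F) : F = ⊤ := by
  have h1 : ∀ j i, y' j i / y' j (i₀ j) ∈ F := fun j i => by
    by_cases hi : i = i₀ j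
    · rw [hi, div_self (h0 j)]; exact one_mem _
    · exact h j i hi
  have h2 : adjoin ℂ (range (algebraMap k K) ∪ rat y') ≤ F.restrictScalars ℂ := by
    refine IntermediateField.adjoin_le_iff.2 ?_
    rintro _ (⟨c, rfl⟩ | ⟨j, i, i', rfl⟩)
    · exact F.algebraMap_mem c
    · rw [← div_div_div_cancel_right₀ (h0 j)]
      exact F.div_mem (h1 j i) (h1 j i')
  exact top_unique fun x _ => h2 (hg ▸ IntermediateField.mem_top)

/-- affine coordinates centred at `y` -/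
def aff (y : Pnt io k) (y' : Pnt io K) (i₀ : (j : J) → io j) (j : J) (i : io j) : K :=
  y' j i / y' j (i₀ j) - algebraMap k K (y j i / y j (i₀ j))

theorem up_sz {i₀ : (j : J) → io j} (h : ∀ j, y j (i₀ j) ≠ 0) (h' : ∀ j, y' j (i₀ j) ≠ 0)
    (hu : ∃ v : Σ j, {i // i ≠ i₀ j}, aff y y' i₀ v.1 v.2 ≠ 0) :
    up k (sz (wdg (im K y) y') fun v => ln (im K y) v.1 + ln y' v.1) =
      mxf k (fun v : Σ j, {i // i ≠ i₀ j} => aff y y' i₀ v.1 v.2) ⊓ 0 := by
  have hy : NZ y := fun j => ⟨_, h j⟩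
  have hy' : NZ y' := fun j => ⟨_, h' j⟩
  have h0 : ∀ j, im K y j (i₀ j) ≠ 0 := fun j => (map_ne_zero (algebraMap k K)).2 (h j)
  have e0 : ∀ j i, y' j i = y' j (i₀ j) * (aff y y' i₀ j i + algebraMap k K (y j i / y j (i₀ j))) :=
    fun j i => by rw [aff, sub_add_cancel, mul_div_cancel₀ _ (h' j)]
  have e1 : ∀ x : Dg io, wdg (im K y) y' x = y' x.1 (i₀ x.1) *
      (im K y x.1 x.2.1 * aff y y' i₀ x.1 x.2.2 - im K y x.1 x.2.2 * aff y y' i₀ x.1 x.2.1) :=
    fun x => by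
      have := h0 x.1
      have := h' x.1
      simp only [wdg, aff, map_div₀, im] at *
      field_simp
      ring
  have e2 : ∀ j, aff y y' i₀ j (i₀ j) = 0 := fun j => by simp [aff, h j, h' j]
  have e3 : ∀ j i, wdg (im K y) y' ⟨j, i₀ j, i⟩ =
      y' j (i₀ j) * (im K y j (i₀ j) * aff y y' i₀ j i) := fun j i => by
    rw [e1, e2, mul_zero, sub_zero]
  have hw : wdg (im K y) y' ≠ 0 := fun h1 => by
    obtain ⟨v, hv⟩ := hu
    exact mul_ne_zero (h' _) (mul_ne_zero (h0 _) hv) ((e3 v.1 v.2).symm.trans (congrFun h1 _))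
  refine ext' fun W => ?_
  obtain ⟨v, hv⟩ := exists_val_mxf (k := k) hu W
  have h1 : ∀ j i, (W.dn ℂ).v (aff y y' i₀ j i) ≤ (W.dn ℂ).v (aff y y' i₀ v.1 v.2) := fun j i => by
    by_cases hi : i = i₀ j
    · rw [hi, e2, map_zero]; exact zero_le
    · exact (mem_Sec_mxf (k := k) (fun v : Σ j, {i // i ≠ i₀ j} => aff y y' i₀ v.1 v.2)
        ⟨j, i, hi⟩ W).trans hv.ge
  have h2 : ∀ c : k, (W.dn ℂ).v (algebraMap k K c) ≤ 1 := W.v_alg_le
  have h3 : (W.dn ℂ).v (im K y v.1 (i₀ v.1)) = 1 := W.v_alg (h _)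
  have h4 := (prim_im hy W).val_ln
  rw [val_up, val_sz hw, val_inf, val_zero, ← hv]
  change _ = min ((W.dn ℂ).v (aff y y' i₀ v.1 v.2)) 1
  generalize W.dn ℂ = V at h1 h2 h3 h4
  refine le_antisymm (le_min (nm_le.2 fun x => ?_) (nm_le.2 fun x => ?_)) ?_
  · rw [e1, map_mul, val_add, h4, one_mul, mul_comm]
    refine mul_le_mul' (V.v.map_sub_le ?_ ?_) (le_ln _ _ _ _) <;> rw [map_mul] <;>
      exact (mul_le_of_le_one_left' (h2 _)).trans (h1 _ _)
  · rw [one_mul, val_add]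
    refine V.v.map_sub_le ?_ ?_ <;> rw [map_mul] <;> exact mul_le_mul' (le_ln _ _ _ _) (le_ln _ _ _ _)
  · have h5 := le_nm (fun v : Dg io => ln (im K y) v.1 + ln y' v.1) V (wdg (im K y) y')
      ⟨v.1, i₀ v.1, v.2⟩
    obtain ⟨i, hi⟩ := exists_ln hy' v.1 V
    have h6 : (ln y' v.1).val V ≤ V.v (y' v.1 (i₀ v.1)) * max (V.v (aff y y' i₀ v.1 v.2)) 1 := by
      rw [← hi, e0 v.1 i, map_mul]
      exact mul_le_mul_right ((V.v.map_add _ _).trans (max_le_max (h1 _ _) (h2 _))) _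
    rw [e3, map_mul, map_mul, h3, val_add, h4, one_mul, one_mul] at h5
    have h7 := h5.trans (mul_le_mul_right h6 _)
    rw [mul_left_comm, mul_le_mul_iff_right₀ (RZ.pos (h' _))] at h7
    rcases le_total (V.v (aff y y' i₀ v.1 v.2)) 1 with h8 | h8
    · rwa [min_eq_left h8, ← mul_one (nm _ _ _), ← max_eq_right h8]
    · rw [max_eq_left h8] at h7
      rw [min_eq_right h8]
      exact (le_mul_iff_one_le_left (zero_lt_one.trans_le h8)).1 h7

variable [CharZero k] [Algebra.EssFiniteType k K]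

theorem num_dh (hy : NZ y) (hy' : NZ y') {r : ℕ} (hr : dimP io = r + 1) (hd : dim k K = r + 1)
    (hg : adjoin ℂ (range (algebraMap k K) ∪ rat y') = ⊤) : wdg (im K y) y' ≠ 0 ∧
    bnum (up k (dh (im K y) y') :: replicate r (up k (-dh (im K y) y'))) = 1 := by
  choose i₀ h using id hy
  choose i₁ h1 using id hy'
  have h' : ∀ j, y' j (i₀ j) ≠ 0 := fun j => by
    by_cases hi : i₀ j = i₁ j
    · exact hi ▸ h1 j
    have h2 := algInd_of_dim (k := k)
      (s := fun v : Σ j, {i // i ≠ i₁ j} => y' v.1 v.2 / y' v.1 (i₁ v.1))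
      (eq_top hg h1 fun j i hi => IntermediateField.subset_adjoin _ _ ⟨⟨j, i, hi⟩, rfl⟩)
      (by rw [card_piv, hr, hd])
    exact (div_ne_zero_iff.1 (h2.ne_zero ⟨j, i₀ j, hi⟩)).1
  have hu : adjoin k (range fun v : Σ j, {i // i ≠ i₀ j} => aff y y' i₀ v.1 v.2) = ⊤ :=
    eq_top hg h' fun j i hi => by
      rw [← sub_add_cancel (y' j i / y' j (i₀ j)) (algebraMap k K (y j i / y j (i₀ j)))]
      exact add_mem (IntermediateField.subset_adjoin _ _ ⟨⟨j, i, hi⟩, rfl⟩)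
        (IntermediateField.algebraMap_mem _ _)
  have hc := (card_piv i₀).trans hr
  obtain ⟨v⟩ := Fintype.card_pos_iff.1 (r.succ_pos.trans_eq hc.symm)
  have hv := (algInd_of_dim hu (by rw [hc, hd])).ne_zero v
  refine ⟨fun h0 => hv ?_, ?_⟩
  · have h2 := congrFun h0 ⟨v.1, i₀ v.1, v.2⟩
    have h3 := (map_ne_zero (algebraMap k K)).2 (h v.1)
    have h4 := h' v.1
    simp only [wdg, aff, map_div₀, im, Pi.zero_apply] at *
    field_simp
    linear_combination h2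
  · rw [dh, neg_neg, map_neg, up_sz h h' ⟨v, hv⟩]
    exact num hu hc hd

variable {B : Th} [Algebra.EssFiniteType ℂ k] [Algebra.EssFiniteType ℂ K]

theorem TP_eq (hy : NZ y) {c c' : J → K} (hc : ∀ j, c j ≠ 0) (hc' : ∀ j, c' j ≠ 0) :
    (∀ x, up k (da (scl c (im K y)) (scl c' (im K y)) x) = pr k (c x.1 * c' x.1)) ∧
    TP (scl c (im K y)) (scl c' (im K y)) = ex (fun x => c x.1 * c' x.1) (TP y y) := by
  have h1 : ∀ j, up k (ln (im K y) j) = 0 := fun j =>
    ext' fun W => (val_up (k := ℂ) _ W).trans ((prim_im hy W).val_ln j)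
  have ha : ∀ x, up k (da (scl c (im K y)) (scl c' (im K y)) x) = pr k (c x.1 * c' x.1) :=
    fun x => by
      rw [da, ln_scl (nz_im hy) hc, ln_scl (nz_im hy) hc', map_add, map_add, map_add, h1, up_pr,
        up_pr, zero_add, zero_add, pr_mul (hc _) (hc' _)]
  have hP : Par (scl c (im K y)) (scl c' (im K y)) :=
    Par.trans ⟨c, hc, rfl⟩ (Par.symm ⟨c', hc', rfl⟩)
  refine ⟨ha, (Submodule.eq_of_le_of_finrank_eq (Submodule.span_le.2 ?_) ?_).symm⟩
  · rintro _ ⟨w, hw, rfl⟩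
    obtain ⟨τ, rfl⟩ := (mem_TP (Par.refl y)).1 hw
    refine (mem_TP hP).2 ⟨vsc c fun v => algebraMap k K (τ v), funext fun x => ?_⟩
    simp only [wg_apply, vsc_apply, vec, scl, im, exv, map_sub, map_mul]
    ring
  · exact (finrank_ex (fun x => mul_ne_zero (hc _) (hc' _)) ha _).trans
      ((finrank_TP (Par.refl y) hy).trans (finrank_TP hP (nz_scl (nz_im hy) hc')).symm)

theorem itg_om (hB : B.Ax) (hy : NZ y) (hy' : NZ y') {r : ℕ} (hr : dimP io = r + 1)
    (hd : dim ℂ K = dim ℂ k + (r + 1)) (hw : wdg (im K y) y' ≠ 0) (φ : B.H k) {W : RZ k K}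
    (hW : Dvs W) (h0 : (dh (im K y) y').val (W.dn ℂ) ≠ 1) :
    B.itg (Rf (W.dn ℂ)) (om B (im K y) y' (W.dn ℂ) *
      B.pb ((LP.hom (IsScalarTower.toAlgHom ℂ k K)).comp (LP.at (W.dn ℂ))) φ) =
      dg W (replicate r (up k (-dh (im K y) y'))) * B.itg k φ := by
  have hV : Dvs (W.dn ℂ) := Pst.dvs_dn.2 hW
  have := essFT_Rf hV
  have h4 := dim_Rf' hV
  let β := rh (IsScalarTower.toAlgHom ℂ k K) (W.dn ℂ) W.2
  let _ : Algebra k (Rf (W.dn ℂ)) := β.toRingHom.toAlgebra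
  have : IsScalarTower ℂ k (Rf (W.dn ℂ)) :=
    IsScalarTower.of_algebraMap_eq fun c => (β.commutes c).symm
  have : Algebra.EssFiniteType k (Rf (W.dn ℂ)) := Algebra.EssFiniteType.of_comp ℂ k _
  have h5 : ∀ c : k, algebraMap k K c ∈ (plV (W.dn ℂ)).V.1 ∧
      ∃ c' : k, (plV (W.dn ℂ)).r (algebraMap k K c) = algebraMap k _ c' :=
    fun c => ⟨W.2 c, c, rfl⟩
  have hp : ∀ {z : Pnt io K}, NZ z → Prim (W.dn ℂ) (scl (fun j => ((ln z j).gen (W.dn ℂ))⁻¹) z) :=
    fun hz => prim_scl hz fun j => by rw [map_inv₀, v_gen]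
  have h1 : Par (rp (plV (W.dn ℂ)) (im K y)) (im (Rf (W.dn ℂ)) y) :=
    Par.red (p := plV (W.dn ℂ)) ⟨_, fun j => inv_ne_zero (gen_ne _ _), rfl⟩ (hp (nz_im hy))
      (prim_im hy W)
  have h2 : Par (rp (plV (W.dn ℂ)) (im K y)) (rp (plV (W.dn ℂ)) y') := by
    refine par_red_of_dl (p := plV (W.dn ℂ)) (hp (nz_im hy)) (hp hy') fun x => ?_
    rw [dh, val_neg, val_sz hw, Ne, inv_eq_one] at h0
    have h6 : nm (fun v : Dg io => ln (im K y) v.1 + ln y' v.1) (W.dn ℂ) (wdg (im K y) y') ≤ 1 :=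
      nm_le.2 fun x => by
        rw [one_mul, val_add]
        refine Valuation.map_sub_le _ ?_ ?_ <;> rw [map_mul] <;>
          exact mul_le_mul' (le_ln _ _ _ _) (le_ln _ _ _ _)
    refine lt_of_le_of_lt (le_of_eq ?_) ((div_le_nm _ _ _ x).trans_lt (h6.lt_of_ne h0))
    rw [val_add, ← v_gen, ← v_gen, ← map_mul, ← map_div₀]
    congr 1
    simp only [dl, wg_apply, vec, scl, wdg]
    have := gen_ne (ln (im K y) x.1) (W.dn ℂ)
    have := gen_ne (ln y' x.1) (W.dn ℂ)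
    field_simp
  obtain ⟨c', hc', e'⟩ := h2.symm.trans h1
  obtain ⟨c, hc, e⟩ := h1
  obtain ⟨h6, h7⟩ := TP_eq hy hc hc'
  rw [om, e, e', h7, hB.pb_comp, pb_at_rh hB (IsScalarTower.toAlgHom ℂ k K) (W.dn ℂ) W.2,
    hB.pb_c1]
  refine (itg_cq hB (fun x => mul_ne_zero (hc _) (hc' _)) h6
    ((finrank_TP (Par.refl y) hy).trans hr) (by omega) _ φ).trans ?_
  rw [show dg W _ = _ from dg_eq_pl (p := Fam.gd (plV (W.dn ℂ)) k k h5) hW
    (fun c => rfl) (surj_plV (W.dn ℂ)) _, List.map_replicate]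
  congr 2
  exact bnum_rep ((Fam.gd_rs h5 _).trans ((Fam.lin_rs_neg _ _).up k)).symm r

open Classical in
theorem ord (hB : B.Ax) (hy : NZ y) (hy' : NZ y') (hp : 0 < dimP io)
    (hd : dim ℂ K = dim ℂ k + dimP io) (hg : adjoin ℂ (range (algebraMap k K) ∪ rat y') = ⊤)
    (φ : B.H k) : ∑ᶠ (V : RZ ℂ K) (_ : Dvs V), od V (dh (im K y) y') *
      (if ∀ x, algebraMap k K x ∈ V.1 then B.itg (Rf V) (om B (im K y) y' V *
        B.pb ((LP.hom (IsScalarTower.toAlgHom ℂ k K)).comp (LP.at V)) φ) else 0) = B.itg k φ := by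
  obtain ⟨r, hr⟩ := Nat.exists_eq_succ_of_ne_zero hp.ne'
  rw [hr] at hd
  obtain ⟨hw, hn⟩ := num_dh hy hy' hr (by have := dim_tower ℂ k K; omega) hg
  obtain ⟨T, h1, h2, h3⟩ := exists_cyc' (up k (dh (im K y) y'))
    (replicate r (up k (-dh (im K y) y')))
  have hinj : Function.Injective (fun W : RZ k K => W.dn ℂ) := fun W W' h =>
    Subtype.ext (congrArg (fun V : RZ ℂ K => V.1) h)
  rw [← one_mul (B.itg k φ), ← Int.cast_one, ← hn, h3, Int.cast_sum, Finset.sum_mul,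
    finsum_eq_sum_of_support_subset (s := T.image fun W => W.dn ℂ),
    Finset.sum_image fun _ _ _ _ h => hinj h]
  · refine Finset.sum_congr rfl fun W hW => ?_
    have hV : Dvs (W.dn ℂ) := Pst.dvs_dn.2 (h1 W hW)
    rw [finsum_eq_if, if_pos hV, if_pos (show ∀ x, algebraMap k K x ∈ (W.dn ℂ).1 from W.2),
      od_up hV, Int.cast_mul, mul_assoc]
    by_cases h0 : od (W.dn ℂ) (dh (im K y) y') = 0
    · rw [h0, Int.cast_zero, zero_mul, zero_mul]
    · rw [itg_om hB hy hy' hr hd hw φ (h1 W hW) ((od_eq_zero hV).not.1 h0)]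
  · intro V hV
    rw [Function.mem_support, finsum_eq_if] at hV
    have hD : Dvs V := by_contra fun h0 => hV (if_neg h0)
    rw [if_pos hD] at hV
    have h4 := right_ne_zero_of_mul hV
    have h5 : ∀ x, algebraMap k K x ∈ V.1 := by_contra fun h0 => h4 (if_neg h0)
    rw [if_pos h5] at h4
    let W : RZ k K := ⟨V.1, h5⟩
    have hW : Dvs W := (Pst.dvs_dn (E := ℂ)).1 hD
    have h6 : od V (dh (im K y) y') ≠ 0 := Int.cast_ne_zero.1 (left_ne_zero_of_mul hV)
    refine Finset.mem_coe.2 (Finset.mem_image.2 ⟨W, h2 W hW ?_ ?_, rfl⟩)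
    · rwa [od_up (W := W) hD]
    · rw [show V = W.dn ℂ from rfl,
        itg_om hB hy hy' hr hd hw φ hW ((od_eq_zero hD).not.1 h6)] at h4
      exact Int.cast_ne_zero.1 (left_ne_zero_of_mul h4)

/-- **ORD** -/
theorem ordStmt : OrdStmt := by
  intro B hB J _ _ io _ _ k K _ _ _ _ _ _ γ y y' hy hy' hp hd hg φ
  let _ : Algebra k K := γ.toRingHom.toAlgebra
  have : IsScalarTower ℂ k K := IsScalarTower.of_algebraMap_eq fun c => (γ.commutes c).symm
  have : Algebra.EssFiniteType k K := Algebra.EssFiniteType.of_comp ℂ k _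
  have : CharZero k := charZero_of_injective_algebraMap (algebraMap ℂ k).injective
  exact ord hB hy hy' hp hd hg φ

end Crest.Agent.X262.Ord20
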