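import Crest.Agent.X262.Tr89.Pb

/-!
# Row 262, road B (helper20): the self-intersection of the exceptional divisor of a point

* `bnum_disj` : divisors which meet trivially;
* `num`       : `E · (-E)^r = 1` for the blow-up of the origin of affine `(r+1)`-space.
-/

set_option autoImplicit false
set_option linter.unusedSectionVars false

noncomputable section

namespace Crest.Agent.X262.Ord20

open Crest.Agent.X277 Crest.Agent.X277.BD Crest.Agent.X277.Pst Crest.Agent.X277.BD.Cyc
open Crest.Agent.X262.Geo Crest.Agent.X262.Tr89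
open Crest.Agent.X262.Lin62 (eft_of_top adjoin_sub dim_le_card)
open List (replicate)
open IntermediateField (adjoin)
open Set (range)

variable {k F : Type} [Field k] [Field F] [Algebra k F] [CharZero k] [Algebra.EssFiniteType k F]

/-- a class which is trivial near the support of a divisor -/
theorem bnum_disj {a b : BD k F}
    (h : ∀ W : RZ k F, a.val W ≠ 1 → ∀ Z : RZ k F, Z.1 ≤ W.1 → b.val Z = 1)
    (l : List (BD k F)) : bnum (a :: b :: l) = 0 := by
  obtain ⟨T, h1, -, h3⟩ := exists_cyc' a (b :: l)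
  rw [h3]
  refine Finset.sum_eq_zero fun W hW => ?_
  by_cases h0 : od W a = 0
  · rw [h0, zero_mul]
  have h4 := h W ((od_eq_zero (h1 W hW)).not.1 h0)
  have := essFT_Rf (h1 W hW)
  have h5 : (plV W).res b = 0 := ext' fun Z => by
    rw [Pl.val_res (g := 1) (h4 _ le_rfl) (by rw [map_one, h4 _ (Pl.cm_le Z)]), Pl.r_one, map_one,
      val_zero]
  rw [Geo.dg_eq, List.map_cons, (Pl.lin_rs_res (p := plV W) (h4 _ le_rfl)).bnum_eq, h5, bnum_zero,
    mul_zero]

theorem bnum_rep_eq {a b c : BD k F} (h : ∀ l, bnum (a :: b :: l) = bnum (a :: c :: l)) :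
    ∀ (m : ℕ) (l : List (BD k F)),
      bnum (a :: (replicate m b ++ l)) = bnum (a :: (replicate m c ++ l))
  | 0, _ => rfl
  | m + 1, l => by
    have h1 : ∀ x : BD k F, bnum (a :: c :: (replicate m x ++ l)) =
        bnum (a :: (replicate m x ++ c :: l)) := fun x =>
      bnum_perm (List.Perm.cons _ List.perm_middle.symm)
    rw [List.replicate_succ, List.replicate_succ, List.cons_append, List.cons_append, h, h1, h1]
    exact bnum_rep_eq h m _

theorem num' {r : ℕ} {u : Fin (r + 1) → F} (hu : adjoin k (range u) = ⊤) (hd : dim k F = r + 1) :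
    bnum (-(mxf k u ⊓ 0) :: replicate r (mxf k u ⊓ 0)) = 1 := by
  have h0 : u 0 ≠ 0 := (algInd_of_dim hu (by simp [hd])).ne_zero 0
  have hA : bnum (replicate (r + 1) (mxf k u ⊔ 0)) = 1 := by
    rw [show mxf k u ⊔ 0 = mxf k (Fin.cons 1 u : Fin (r + 2) → F) from
      eq_mxf (fun i W => ?_) fun W => ?_]
    · exact bnum_proj (by simp) (by simpa using hu) hd
    · rw [val_sup]
      refine Fin.cases ?_ (fun i => le_max_of_le_left (mem_Sec_mxf u i W)) i
      simp
    · rw [val_sup]
      rcases le_total ((mxf k u).val W) ((0 : BD k F).val W) with h | h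
      · exact ⟨0, by rw [max_eq_right h]; simp⟩
      · obtain ⟨i, hi⟩ := exists_val_mxf (k := k) ⟨0, h0⟩ W
        exact ⟨i.succ, by rw [max_eq_left h]; exact hi⟩
  have hB : bnum (replicate (r + 1) (mxf k u)) = 0 := by
    by_contra hc
    have h1 := le_dim_of_bnum h0 hc
    have h2 : adjoin k (range fun j => u j / u 0) =
        adjoin k (range fun j : Fin r => u j.succ / u 0) := by
      refine le_antisymm (IntermediateField.adjoin_le_iff.2 ?_)
        (IntermediateField.adjoin.mono _ _ _ (by rintro _ ⟨j, rfl⟩; exact ⟨_, rfl⟩))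
      rintro _ ⟨j, rfl⟩
      refine Fin.cases ?_ (fun l => IntermediateField.subset_adjoin _ _ ⟨l, rfl⟩) j
      simp [div_self h0]
    rw [h2] at h1
    have := eft_of_top (adjoin_sub (k := k) fun j : Fin r => u j.succ / u 0)
    have h3 := dim_le_card (adjoin_sub (k := k) fun j : Fin r => u j.succ / u 0)
    rw [Fintype.card_fin] at h3
    omega
  generalize mxf k u = a at hA hB
  have h1 : ∀ l, bnum ((a ⊓ 0) :: (a ⊔ 0) :: l) = 0 := bnum_disj fun W hW Z hZ => by
    rw [val_sup, val_zero, max_eq_right_iff]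
    by_contra hc
    have h2 : Z.v (a.gen Z)⁻¹ ≤ 1 := by
      rw [map_inv₀, v_gen]
      exact inv_le_one_of_one_le₀ (not_le.1 hc).le
    have h3 : W.v (a.gen Z)⁻¹ ≤ 1 := RZ.le_one_iff.2 (hZ (RZ.le_one_iff.1 h2))
    rw [map_inv₀, val_of_le hZ (v_gen a Z), inv_le_one₀ (val_pos _ _)] at h3
    exact hW (by rw [val_inf, val_zero, min_eq_right h3])
  have h2 : a = a ⊔ 0 + a ⊓ 0 := by rw [add_comm, inf_add_sup, add_zero]
  generalize a ⊔ 0 = A at hA h1 h2
  generalize a ⊓ 0 = N at h1 h2
  subst h2
  have h3 := bnum_rep_eq (a := A) (b := A + N) (c := A)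
    (fun l => by rw [bnum_add2, bnum_swap A N, h1, add_zero]) r []
  have h4 := bnum_rep_eq (a := N) (b := A + N) (c := N)
    (fun l => by rw [bnum_add2, h1, zero_add]) r []
  simp only [List.append_nil] at h3 h4
  rw [List.replicate_succ] at hA hB
  rw [bnum_add, h3, h4, hA] at hB
  rw [bnum_neg]
  omega

/-- the exceptional divisor of the blow-up of the origin -/
theorem num {ι : Type} [Fintype ι] {r : ℕ} {u : ι → F} (hu : adjoin k (range u) = ⊤)
    (hc : Fintype.card ι = r + 1) (hd : dim k F = r + 1) :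
    bnum (-(mxf k u ⊓ 0) :: replicate r (mxf k u ⊓ 0)) = 1 := by
  let e := (Fintype.equivFinOfCardEq hc).symm
  have h0 : u (e 0) ≠ 0 := (algInd_of_dim hu (by rw [hd, hc])).ne_zero _
  rw [show mxf k u = mxf k (u ∘ e) from eq_mxf (fun i => mem_Sec_mxf u _) fun W => ?_]
  · exact num' (by rwa [e.surjective.range_comp]) hd
  · obtain ⟨i, hi⟩ := exists_val_mxf (k := k) ⟨_, h0⟩ W
    exact ⟨e.symm i, by simpa using hi⟩

end Crest.Agent.X262.Ord20
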